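import Vale.Agent.P235.K5.W.Defs

/-! P235, K5, [W-TT]: TRI and TRI give `K_5`. -/

set_option autoImplicit false

namespace Vale.Agent.P235.K5.W.H435

open SimpleGraph Vale.Agent.P235.K5.W

/-- the class of the parts `P k` and `B k` -/
def sg (j k : Fin 3) : Fin 5 := if k = j then 0 else if k = j + 1 then 1 else 2

/-- the class of the parts `Q k` and `A k` -/
def ta (i k : Fin 3) : Fin 5 := if k = i then 0 else if k = i + 1 then 3 else 4

lemma sg_zero : ∀ j k, sg j k = 0 ↔ k = j := by decide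
lemma ta_zero : ∀ i k, ta i k = 0 ↔ k = i := by decide
lemma sg_inj : ∀ j k l, sg j k = sg j l ↔ k = l := by decide
lemma ta_inj : ∀ i k l, ta i k = ta i l ↔ k = l := by decide
lemma sg_ta : ∀ i j k l, sg j k = ta i l ↔ k = j ∧ l = i := by decide
lemma cases5 : ∀ i j, ∀ c : Fin 5, c = 0 ∨ (∃ k, k ≠ j ∧ c = sg j k) ∨ ∃ k, k ≠ i ∧ c = ta i k := by
  decide

lemma tch_symm {V ι : Type} {G : SimpleGraph V} {f : V → ι} {i j : ι} (h : Tch G f i j) :
    Tch G f j i := by
  obtain ⟨u, v, h1, h2, h3⟩ := h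
  exact ⟨v, u, h2, h1, h3.symm⟩

/-- **[W-TT]** -/
theorem tt : TTStmt := by
  intro V G f i j hf hA hB
  obtain ⟨g, hg1, hg2, hg3⟩ := hA
  obtain ⟨g', hg1', hg2', hg3'⟩ := hB
  obtain ⟨hM, hT⟩ := hf
  set h : V → Fin 5 := fun v => match f v with
    | Sum.inl a => if a = i then sg j (g v) else ta i a
    | Sum.inr c => if c = j then ta i (g' v) else sg j c with hh
  have hA1 : ∀ v, f v = Sum.inl i → h v = sg j (g v) := by
    intro v hv
    simp only [hh, hv, if_true]
  have hA2 : ∀ v a, f v = Sum.inl a → a ≠ i → h v = ta i a := by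
    intro v a hv ha
    simp only [hh, hv, if_neg ha]
  have hB1 : ∀ v, f v = Sum.inr j → h v = ta i (g' v) := by
    intro v hv
    simp only [hh, hv, if_true]
  have hB2 : ∀ v c, f v = Sum.inr c → c ≠ j → h v = sg j c := by
    intro v c hv hc
    simp only [hh, hv, if_neg hc]
  -- contacts
  have cA : ∀ k, ∃ u v, f u = Sum.inl i ∧ g u = k ∧ f v = Sum.inr k ∧ G.Adj u v := by
    intro k
    obtain ⟨u, v, hu, hv, huv⟩ := hT i k
    exact ⟨u, v, hu, hg3 u hu k ⟨v, hv, huv⟩, hv, huv⟩
  have cB : ∀ k, ∃ u v, f u = Sum.inl k ∧ f v = Sum.inr j ∧ g' v = k ∧ G.Adj u v := by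
    intro k
    obtain ⟨u, v, hu, hv, huv⟩ := hT k j
    exact ⟨u, v, hu, hv, hg3' v hv k ⟨u, hu, huv.symm⟩, huv⟩
  -- fibres
  have f0 : {v | h v = 0} = {v | v ∈ part f (Sum.inl i) ∧ g v = j} ∪
      {v | v ∈ part f (Sum.inr j) ∧ g' v = i} := by
    ext v
    rcases hv : f v with a | c
    · by_cases ha : a = i
      · subst ha
        simp only [Set.mem_ofPred_eq, Set.mem_union, part, hv, hA1 v hv, sg_zero]
        simp
      · simp only [Set.mem_ofPred_eq, Set.mem_union, part, hv, hA2 v a hv ha, ta_zero]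
        simp [ha]
    · by_cases hc : c = j
      · subst hc
        simp only [Set.mem_ofPred_eq, Set.mem_union, part, hv, hB1 v hv, ta_zero]
        simp
      · simp only [Set.mem_ofPred_eq, Set.mem_union, part, hv, hB2 v c hv hc, sg_zero]
        simp [hc]
  have f1 : ∀ k, k ≠ j → {v | h v = sg j k} = {v | v ∈ part f (Sum.inl i) ∧ g v = k} ∪
      {v | f v = Sum.inr k} := by
    intro k hk
    ext v
    rcases hv : f v with a | c
    · by_cases ha : a = i
      · subst ha
        simp only [Set.mem_ofPred_eq, Set.mem_union, part, hv, hA1 v hv, sg_inj]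
        simp
      · have h1 : ¬ ta i a = sg j k := fun h2 => ha ((sg_ta i j k a).1 h2.symm).2
        simp only [Set.mem_ofPred_eq, Set.mem_union, part, hv, hA2 v a hv ha]
        simp [ha, h1]
    · by_cases hc : c = j
      · subst hc
        have h1 : ¬ ta i (g' v) = sg c k := fun h2 => hk ((sg_ta i c k (g' v)).1 h2.symm).1
        simp only [Set.mem_ofPred_eq, Set.mem_union, part, hv, hB1 v hv]
        simp [h1, Ne.symm hk]
      · simp only [Set.mem_ofPred_eq, Set.mem_union, part, hv, hB2 v c hv hc, sg_inj]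
        simp
  have f2 : ∀ k, k ≠ i → {v | h v = ta i k} = {v | f v = Sum.inl k} ∪
      {v | v ∈ part f (Sum.inr j) ∧ g' v = k} := by
    intro k hk
    ext v
    rcases hv : f v with a | c
    · by_cases ha : a = i
      · subst ha
        have h1 : ¬ sg j (g v) = ta a k := fun h2 => hk ((sg_ta a j (g v) k).1 h2).2
        simp only [Set.mem_ofPred_eq, Set.mem_union, part, hv, hA1 v hv]
        simp [h1, Ne.symm hk]
      · simp only [Set.mem_ofPred_eq, Set.mem_union, part, hv, hA2 v a hv ha, ta_inj]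
        simp
    · by_cases hc : c = j
      · subst hc
        simp only [Set.mem_ofPred_eq, Set.mem_union, part, hv, hB1 v hv, ta_inj]
        simp
      · have h1 : ¬ sg j c = ta i k := fun h2 => hc ((sg_ta i j c k).1 h2).1
        simp only [Set.mem_ofPred_eq, Set.mem_union, part, hv, hB2 v c hv hc]
        simp [hc, h1]
  refine ⟨h, ?_, ?_⟩
  · intro c
    rcases cases5 i j c with rfl | ⟨k, hk, rfl⟩ | ⟨k, hk, rfl⟩
    · rw [f0]
      obtain ⟨u, v, hu, hgu, hv, huv⟩ := cA j
      have hgv : g' v = i := hg3' v hv i ⟨u, hu, huv.symm⟩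
      exact connected_induce_union (v := u) (w := v) (hg1 j).preconnected (hg1' i).preconnected
        ⟨hu, hgu⟩ ⟨hv, hgv⟩ huv
    · rw [f1 k hk]
      obtain ⟨u, v, hu, hgu, hv, huv⟩ := cA k
      exact connected_induce_union (v := u) (w := v) (hg1 k).preconnected
        (hM (Sum.inr k)).preconnected ⟨hu, hgu⟩ hv huv
    · rw [f2 k hk]
      obtain ⟨u, v, hu, hv, hgv, huv⟩ := cB k
      exact connected_induce_union (v := u) (w := v) (hM (Sum.inl k)).preconnected
        (hg1' k).preconnected hu ⟨hv, hgv⟩ huv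
  · have t1 : ∀ k l, k ≠ l → Tch G h (sg j k) (sg j l) := by
      intro k l hkl
      obtain ⟨u, hu, v, hv, hgu, hgv, huv⟩ := hg2 k l hkl
      exact ⟨u, v, by rw [hA1 u hu, hgu], by rw [hA1 v hv, hgv], huv⟩
    have t2 : ∀ k l, k ≠ l → Tch G h (ta i k) (ta i l) := by
      intro k l hkl
      obtain ⟨u, hu, v, hv, hgu, hgv, huv⟩ := hg2' k l hkl
      exact ⟨u, v, by rw [hB1 u hu, hgu], by rw [hB1 v hv, hgv], huv⟩
    have t3 : ∀ k l, k ≠ j → l ≠ i → Tch G h (ta i l) (sg j k) := by
      intro k l hk hl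
      obtain ⟨u, v, hu, hv, huv⟩ := hT l k
      exact ⟨u, v, hA2 u l hu hl, hB2 v k hv hk, huv⟩
    have z1 : sg j j = 0 := (sg_zero j j).2 rfl
    have z2 : ta i i = 0 := (ta_zero i i).2 rfl
    intro c c' hcc
    have hne : c ≠ c' := hcc
    rcases cases5 i j c with rfl | ⟨k, hk, rfl⟩ | ⟨k, hk, rfl⟩
    · rcases cases5 i j c' with rfl | ⟨l, hl, rfl⟩ | ⟨l, hl, rfl⟩
      · exact absurd rfl hne
      · rw [← z1]
        exact t1 j l (Ne.symm hl)
      · rw [← z2]
        exact t2 i l (Ne.symm hl)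
    · rcases cases5 i j c' with rfl | ⟨l, hl, rfl⟩ | ⟨l, hl, rfl⟩
      · rw [← z1]
        exact t1 k j hk
      · exact t1 k l fun h1 => hne (by rw [h1])
      · exact tch_symm (t3 k l hk hl)
    · rcases cases5 i j c' with rfl | ⟨l, hl, rfl⟩ | ⟨l, hl, rfl⟩
      · rw [← z2]
        exact t2 k i hk
      · exact t3 l k hl hk
      · exact t2 k l fun h1 => hne (by rw [h1])

end Vale.Agent.P235.K5.W.H435
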